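import Vale.Agent.P004R.St2
import Vale.Agent.P014Y.Pr.All

/-!
# P014Z: rank one and rank two groups over `𝔽_p[T] / T ^ J` (words)
-/

set_option autoImplicit false
set_option linter.all false

open NumberField Matrix
open scoped Pointwise PowerSeries

noncomputable section

namespace Vale.Agent.P014Z.Ml

open Vale.Agent.P022 Vale.Agent.P014U
open Vale.Agent.P027M.S (Inert)
open Vale.Agent.P022D.W (dec)
open Vale.Agent.P022E.GW (Ov Fb)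
open Vale.Agent.P022K.G2 (oz)

export Vale.Agent.P004R (Z0 r1)
export Vale.Agent.P014Y.Pr (Ge)

variable [Pp]

/-- `R = 𝔽_p[T] / T ^ J` -/
structure Tq {R : Type} [CommRing R] (ρ : (ZMod pp)⟦X⟧ →+* R) (J : ℕ) : Prop where
  sur : Function.Surjective ρ
  ker : ∀ x, ρ x = 0 ↔ PowerSeries.X ^ J ∣ x

section words

variable {R : Type} [CommRing R] (ρ : (ZMod pp)⟦X⟧ →+* R)

/-- the variable -/
abbrev tt : R := ρ PowerSeries.X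

/-- the character `(1 + T) ^ e` -/
def ch {n : ℕ} (e : GQ → ZMod n) (g : GQ) : R := (1 + tt ρ) ^ (e g).val

/-- the twist by a residual character -/
def tw (α : GQ → ZMod pp) (χ : GQ → R) (g : GQ) : R := ρ (PowerSeries.C (α g)) * χ g

/-- rank two -/
def r2 (χ : GQ → R) (b : GQ → Matrix (Fin 2) (Fin 2) (ZMod pp)) (g : GQ) :
    Matrix (Fin 2) (Fin 2) R := χ g • (b g).map (ρ.comp PowerSeries.C)

/-- rank one cocycles which vanish at `P` -/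
abbrev Zr (Γ : Subgroup GQ) (T : Finset ℕ) (χ : GQ → R) (P : Ideal (𝓞 Qb)) := Z0 Γ T (r1 χ) P

/-- residually trivial at `Q` -/
def Rt (χ : GQ → R) (Q : Ideal (𝓞 Qb)) : Prop := ∀ g ∈ dec Q, tt ρ ∣ χ g - 1

/-- not residually cyclotomic -/
def Nw (Γ : Subgroup GQ) (χ : GQ → R) : Prop :=
  ∃ g ∈ Γ, ¬ tt ρ ∣ χ g - ρ (PowerSeries.C (oz pp g))

end words

/-- `b` is an extension of `α` by `δ` -/
def Tri (Γ : Subgroup GQ) (b : GQ → Matrix (Fin 2) (Fin 2) (ZMod pp)) (α δ : GQ → ZMod pp) : Prop :=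
  ∃ C C' : Matrix (Fin 2) (Fin 2) (ZMod pp), C * C' = 1 ∧ ∀ g ∈ Γ,
    (C' * b g * C) 0 1 = 0 ∧ (C' * b g * C) 0 0 = α g ∧ (C' * b g * C) 1 1 = δ g

/-- **the group of an extension is the product of the rank one groups** -/
def MUL : Prop := ∀ (R : Type) [CommRing R] (ρ : (ZMod pp)⟦X⟧ →+* R) (J : ℕ), Tq ρ J → 0 < J →
  ∀ (Γ : Subgroup GQ) (T : Finset ℕ) (χ : GQ → R) (b : GQ → Matrix (Fin 2) (Fin 2) (ZMod pp))
    (α δ : GQ → ZMod pp) P, Ge Γ T (r1 χ) → Ge Γ T b → Tri Γ b α δ → Ov pp P → dec P ≤ Γ →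
  (Nw ρ Γ (tw ρ α χ) ∧ Nw ρ Γ (tw ρ δ χ) ∨
    ∃ l ∈ T, l ≠ pp ∧ ∃ Q, Ov l Q ∧ dec Q ≤ Γ ∧ Rt ρ (tw ρ α χ) Q ∧ Rt ρ (tw ρ δ χ) Q) →
  Finite (Z0 Γ T (r2 ρ χ b) P) ∧
    Nat.card (Z0 Γ T (r2 ρ χ b) P) ≤ Nat.card (Zr Γ T (tw ρ α χ) P) * Nat.card (Zr Γ T (tw ρ δ χ) P) ∧
    ∀ l, 2 * l ≤ J → Nat.card (Zr Γ T (tw ρ α χ) P) * Nat.card (Zr Γ T (tw ρ δ χ) P) ≤ pp ^ l →
      Nat.card (Zr Γ T (tw ρ α χ) P) * Nat.card (Zr Γ T (tw ρ δ χ) P) ≤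
        Nat.card (Z0 Γ T (r2 ρ χ b) P)

end Vale.Agent.P014Z.Ml
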