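import Vale.Agent.P014Z.Ml.Wd
import Vale.Agent.P014Y.Rd.Du1

/-!
# P014Z: the count of rank one cocycles from tame local relations (helper93)
-/

set_option autoImplicit false
set_option linter.all false

open NumberField Matrix
open scoped Pointwise PowerSeries Classical

noncomputable section

namespace Vale.Agent.P014Z.Ml.D0

open Vale.Agent.P022 Vale.Agent.P022K Vale.Agent.P014U
open Vale.Agent.P027M.S (Inert)
open Vale.Agent.P022D.W (dec inP_le_dec)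
open Vale.Agent.P022E.GW (Ov Fb)
open Vale.Agent.P022K.G2 (oz om)
open Vale.Agent.P004F (M2 Cc Nt)
open Vale.Agent.P004F.Pr (ac Zs)
open Vale.Agent.P004F.Lt (zero_ac)
open Vale.Agent.P004F.Cn.Gx
open Vale.Agent.P014Y.F.Cn (Tp)
open Vale.Agent.P014Y.Rd.D1 (cnt acs)

variable [Pp] {R : Type} [CommRing R] {ι : Type} {Γ : Subgroup GQ} {T : Finset ℕ}

/-- **presentation** of the cocycles which vanish at `P2` -/
theorem gen [IsLocalRing R] [Finite R] (π : R →+* ZMod pp) (h2 : (pp : R) = 0) {a : GQ → M2 R}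
    (G : Ge Γ T a) {P2 : Ideal (𝓞 Qb)} (o2 : Ov pp P2) (d2 : dec P2 ≤ Γ)
    [Fintype ι] (l : ι → ℕ) (P : ι → Ideal (𝓞 Qb)) (φ τ : ι → GQ) (hT : ∀ i, l i ∈ T)
    (hι : ∀ i, Tp Γ a (l i) (P i) (φ i) (τ i)) (un : ∀ i j, ∀ g ∈ Γ, P j = g • P i → i = j)
    (rel : (∀ v : Fin 2 → ZMod pp, (∀ g ∈ Γ, v ᵥ* (a g).map π = om pp (ZMod pp) g • v) → v = 0) ∨
      ∃ s ∈ T, s ≠ pp ∧ ∃ Q, Ov s Q ∧ dec Q ≤ Γ ∧ (∀ g ∈ dec Q, (a g).map π = 1) ∧
        ∀ i, ∀ g ∈ Γ, Q ≠ g • P i) :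
    ∃ (g r : ℕ) (Q : Matrix (Fin r) (Fin g) R) (w : ι → Matrix (Fin 2 ⊕ Fin 2) (Fin g) R)
      (F : (Fin g → R) → GQ → Fin 2 → R), r + 2 * Fintype.card ι = g ∧
      Set.BijOn F {y | Q *ᵥ y = 0 ∧ ∀ i, (Nt (a (φ i)) (a (τ i)) (l i) * w i) *ᵥ y = 0}
        {x | Cc Γ T a x ∧ ∀ g ∈ dec P2, x g = 0} := by
  choose b b1 b2 b3 b4 b5 using fun i => X4F.Lt.loct R 1 (by rw [pow_one, h2]) Γ _ 1 _ _ _ a
    (hι i).ov (hι i).ne one_pos (hι i).fb (hι i).gn (fun g m => (hι i).le (inP_le_dec m))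
    (fun n => iff_of_true (pow_mem ((hι i).le (hι i).mφ) n) (one_dvd n)) G.opn G.one
    (fun g m j n => G.mul g m.1 j n.1) (G.lc.imp fun W k => ⟨k.1, fun w m => k.2 w m.1⟩) (hι i).ord
  simp only [pow_one] at b1 b3 b5
  have nq : ∀ {p q : ℕ} {A B : Ideal (𝓞 Qb)} {g : GQ}, Ov p A → Ov q B → B = g • A → p = q :=
    fun o o' e => GW.Pl.ov_uniq (GW.ov_smul o _) (e ▸ o')
  obtain ⟨g, r, Q, u, w, bij, -, crd⟩ := P014Y.Pr.presn (P := fun o : Option ι => o.elim P2 P)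
    (b := fun o g => o.elim 0 fun i => em i (b i g))
    (N := dg fun i => Nt (a (φ i)) (a (τ i)) (l i)) π G
    (by rintro (_ | i); exacts [⟨pp, G.pm, o2⟩, ⟨_, hT i, (hι i).ov⟩])
    (by
      rintro (_ | i) (_ | j) g m e
      exacts [rfl, ((hι j).ne (nq o2 (hι j).ov e).symm).elim, ((hι i).ne (nq (hι i).ov o2 e)).elim,
        congrArg _ (un i j g m e)])
    ⟨none, o2, d2, by
      rintro (_ | j) o
      exacts [rfl, ((hι j).ne (GW.Pl.ov_uniq (hι j).ov o)).elim]⟩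
    (by
      rintro (_ | i) g m j n
      exacts [⟨0, by simp⟩, (b1 i g m j n).elim fun β k => ⟨_, em_coc k⟩])
    (by
      rintro (_ | i)
      exacts [⟨⊤, isOpen_univ, fun _ _ _ _ _ => rfl⟩, (b2 i).imp fun W k =>
        ⟨k.1, fun g m v n p => congrArg (em i) (k.2 g m v n p)⟩])
    (rel.imp_right fun ⟨s, a1, a2, Q, a3, a4, a5, a6⟩ => ⟨s, a1, a2, Q, a3, a4, a5, by
      rintro (_ | i) g m e
      exacts [a2 (nq o2 a3 e).symm, a6 i g m e]⟩)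
  have bij := bij R
  have k0 : ∀ y : Fin g → R, ac (dg (fun i => Nt (a (φ i)) (a (τ i)) (l i)) * w) y = 0 ↔
      ∀ i, (Nt (a (φ i)) (a (τ i)) (l i) * w.submatrix (Prod.mk i) id) *ᵥ y = 0 := fun y => by
    change _ *ᵥ y = 0 ↔ _
    simp only [← mulVec_mulVec, dg_mv]
    rfl
  have k1 : ∀ x ∈ Zs R Γ T a (fun o : Option ι => o.elim P2 P)
      (fun o g => o.elim 0 fun i => em i (b i g)),
      ∀ i, (fun c => x.2 (i, c)) = Sum.elim (x.1 (φ i)) (x.1 (τ i)) := fun x m i => by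
    have e := fun g n => (m.2.2.2.2 (some i) g ⟨(hι i).le n, n⟩).trans (em_mv i _ _)
    rw [e _ (hι i).mφ, e _ (hι i).mτ, b3, b4, fromCols_mulVec, fromCols_mulVec]
    ext (c | c) <;> simp
  have k2 := fun y (h1 : Q *ᵥ y = 0) h2 => (bij.1 (x := y) ⟨h1, (k0 y).2 h2⟩).1
  refine ⟨g, r, Q, fun i => w.submatrix (Prod.mk i) id, fun y γ => u γ *ᵥ y, by
    simp at crd; omega, fun y ⟨h1, h2⟩ => ?_, fun y ⟨h1, h2⟩ z ⟨h3, h4⟩ e => ?_,
      fun x ⟨X, h0⟩ => ?_⟩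
  · have m := k2 y h1 h2
    exact ⟨⟨m.1, m.2.1, m.2.2.1, m.2.2.2.1⟩, fun g n =>
      (m.2.2.2.2 none g ⟨d2 n, n⟩).trans (zero_mulVec _)⟩
  · refine bij.2.1 ⟨h1, (k0 y).2 h2⟩ ⟨h3, (k0 z).2 h4⟩ (Prod.ext e (funext fun ⟨i, c⟩ => ?_))
    exact (congrFun (k1 _ (k2 y h1 h2) i) c).trans
      ((congrArg (fun x : GQ → Fin 2 → R => Sum.elim (x (φ i)) (x (τ i)) c) e).trans
        (congrFun (k1 _ (k2 z h3 h4) i) c).symm)
  · have c := fun i => b5 i R x (fun g m j n => X.coc g m.1 j n.1)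
      (X.lc.imp fun W k => ⟨k.1, fun w _ => k.2 w⟩)
    obtain ⟨y, ⟨h1, h2⟩, e⟩ := @bij.2.2 (x, fun z => Sum.elim (x (φ z.1)) (x (τ z.1)) z.2)
      ⟨⟨X.coc, X.out, X.lc, X.unr, by
        rintro (_ | i) g n
        exacts [(h0 g n.2).trans (zero_mulVec _).symm, ((c i).2 g n).trans
          (em_mv i _ fun z => Sum.elim (x (φ z.1)) (x (τ z.1)) z.2).symm]⟩,
      (dg_mv _ _).2 fun i => (c i).1⟩
    exact ⟨y, ⟨h1, (k0 y).1 h2⟩, congrArg Prod.fst e⟩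

omit [Pp] in
theorem nt (S : Ideal R) {u v : R} {q : ℕ} (hu : u - q ∈ S) (hv : v - 1 ∈ S)
    (j k) : Nt (u • (1 : M2 R)) (v • 1) q j k ∈ S := by
  have a := Ideal.Quotient.eq.2 hu
  have b := Ideal.Quotient.eq.2 hv
  rw [map_natCast] at a
  rw [← Ideal.Quotient.eq_zero_iff_mem]
  rcases k with k | k <;>
    simp [Nt, smul_pow, Matrix.sum_apply, Matrix.one_apply, apply_ite (Ideal.Quotient.mk S), a, b]

/-- **the count**: at the place `p i` the character is cyclotomic modulo `S i` -/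
theorem du0 [IsLocalRing R] [Finite R] (π : R →+* ZMod pp) (h2 : (pp : R) = 0) {χ : GQ → R}
    (G : Ge Γ T (r1 χ)) {P : Ideal (𝓞 Qb)} (oP : Ov pp P) (dP : dec P ≤ Γ) [Fintype ι]
    (l : ι → ℕ) (p : ι → Ideal (𝓞 Qb)) (hT : ∀ i, l i ∈ T) (ne : ∀ i, l i ≠ pp)
    (o : ∀ i, Ov (l i) (p i)) (le : ∀ i, dec (p i) ≤ Γ)
    (un : ∀ i j, ∀ g ∈ Γ, p j = g • p i → i = j) (S : ι → Ideal R) (c : ι → ℕ)
    (hc : ∀ i, c i * Nat.card (S i) ≤ Nat.card R)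
    (hI : ∀ i g, Inert (p i) g → χ g - 1 ∈ S i ∧ IsNilpotent (χ g - 1))
    (hF : ∀ i g, Fb (l i) (p i) g → χ g - l i ∈ S i)
    (rel : (∃ g ∈ Γ, π (χ g) ≠ oz pp g) ∨ ∃ s ∈ T, s ≠ pp ∧ ∃ Q, Ov s Q ∧ dec Q ≤ Γ ∧
      (∀ g ∈ dec Q, π (χ g) = 1) ∧ ∀ i, ∀ g ∈ Γ, Q ≠ g • p i) :
    Finite (Zr Γ T χ P) ∧ ∏ i, c i ≤ Nat.card (Zr Γ T χ P) := by
  have r1' : ∀ {g}, r1 χ g = 1 → χ g • (1 : M2 R) = 1 := fun e => by
    rw [show χ _ = 1 by simpa [r1] using congrFun₂ e 0 0, one_smul]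
  have G' : Ge Γ T fun g => χ g • (1 : M2 R) :=
    ⟨G.opn, G.idx, G.cx, G.pm, G.pr, r1' G.one, fun g a h b => by
      rw [show χ (g * h) = χ g * χ h by simpa [r1, mul_comm] using congrFun₂ (G.mul g a h b) 0 0,
        smul_mul_smul_comm, mul_one], G.lc.imp fun W k => ⟨k.1, fun w a b => r1' (k.2 w a b)⟩,
      fun g a b => r1' (G.unr g a b)⟩
  choose φ hφ using fun i => P022D.W.exists_phi (o i).1 (o i).2.1 (o i).2.2
  choose τ hτ using fun i => ex_gn (o i) (ne i)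
  have mp (g) : (χ g • (1 : M2 R)).map π = π (χ g) • 1 := by
    ext i j; simp [Matrix.one_apply, apply_ite π]
  obtain ⟨g, r, Q, w, F, e, bij⟩ := gen π h2 G' oP dP l p φ τ hT
    (fun i => ⟨ne i, o i, hφ i, hτ i, le i, fun g m => by
      obtain ⟨n, e⟩ := (hI i g m).2
      obtain ⟨z, e'⟩ := exists_add_pow_prime_pow_eq pp_prime (χ g - 1) 1 n
      rw [sub_add_cancel, h2, pow_eq_zero_of_le (Nat.lt_pow_self one_lt).le e] at e'
      exact ⟨n, by rw [smul_pow, e']; simp⟩⟩) un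
    (rel.imp (fun ⟨g, m, n⟩ v k => by
      have := k g m
      rw [mp, vecMul_smul, vecMul_one, om, ZMod.castHom_self, ← sub_eq_zero, ← sub_smul] at this
      exact (smul_eq_zero.1 this).resolve_left (sub_ne_zero.2 n))
      fun ⟨s, s1, s2, Q, s3, s4, s5, s6⟩ => ⟨s, s1, s2, Q, s3, s4, fun g m => by
        rw [mp, s5 g m, one_smul], s6⟩)
  have c1 := (cnt Q (fun i => Nt (χ (φ i) • 1) (χ (τ i) • 1) (l i) * w i) S c e
    (fun i j k' => Ideal.sum_mem _ (t := .univ) fun t _ => Ideal.mul_mem_right (w i t k') _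
      (nt _ (hF i _ (hφ i)) (hI i _ (hτ i).1).1 j t)) hc).trans_eq (Nat.card_congr bij.equiv)
  have fin := ((Set.toFinite _).of_surjOn F bij.2.2).to_subtype
  have : Finite (Zr Γ T χ P) := .of_injective (β := {x | Cc Γ T (fun g => χ g • (1 : M2 R)) x ∧
      ∀ g ∈ dec P, x g = (0 : Fin 2 → R)}) (fun z => ⟨fun g _ => z.1.1 g 0, by
    obtain ⟨z, z1, z2, ⟨W, oW, z3⟩, z4, z5⟩ := z
    exact ⟨⟨fun g a h b => funext fun j => by
      rw [acs]; exact (congrFun (z1 g a h b) 0).trans (by rw [r1, acs]; rfl),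
      fun g a => funext fun _ => congrFun (z2 g a) 0, ⟨W, oW, fun g a => funext fun _ =>
        congrFun (z3 g a) 0⟩, fun g a => funext fun _ => congrFun (z4 g a) 0⟩, fun g a =>
      funext fun _ => congrFun ((z5 () g ⟨dP a, a⟩).trans (zero_ac _)) 0⟩⟩) fun z z' e =>
    Subtype.ext (Prod.ext (funext₂ fun g j => by
      rw [Subsingleton.elim j 0]; exact congrFun₂ (congrArg Subtype.val e) g 0)
      (Subsingleton.elim _ _))
  refine ⟨this, (Nat.pow_le_pow_iff_left two_ne_zero).1 (c1.trans ((Nat.card_le_card_of_injective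
    (β := Fin 2 → Zr Γ T χ P) (fun x j => ⟨(fun g _ => x.1 g j, Empty.elim), ?_⟩)
      fun x y e => ?_).trans (by simp [Nat.card_pi])))⟩
  · obtain ⟨x, ⟨x1, x2, ⟨W, oW, x3⟩, x4⟩, x5⟩ := x
    exact ⟨fun g a h b => funext fun _ => by
      rw [r1, acs]; exact (congrFun (x1 g a h b) j).trans (by rw [acs]; rfl),
      fun g a => funext fun _ => congrFun (x2 g a) j, ⟨W, oW, fun g a => funext fun _ =>
        congrFun (x3 g a) j⟩, fun g a => funext fun _ => congrFun (x4 g a) j, fun _ g a =>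
      (funext fun _ => congrFun (x5 g a.2) j).trans (zero_ac _).symm⟩
  · exact Subtype.ext (funext₂ fun g j =>
      congrFun₂ (congrArg (fun z => z.1.1) (congrFun e j)) g 0)

end Vale.Agent.P014Z.Ml.D0
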