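import Vale.Agent.P014Z.Ml.Wd
import Vale.Agent.P014Y.Rd.Mul0
import Vale.Agent.P004R.Dbl

/-!
# P014Z: the row `MUL` at every odd prime
-/

set_option autoImplicit false
set_option linter.all false

open NumberField Matrix TrivSqZeroExt
open scoped Pointwise PowerSeries

noncomputable section

namespace Vale.Agent.P014Z.Ml

open Vale.Agent.P022 Vale.Agent.P014U P004F.Pr P014Y P014Y.Rd.Ml
open Vale.Agent.P022D.W (dec)
open Vale.Agent.P022E.GW (Ov)
open Vale.Agent.P022K.G2 (oz)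
open P004R.Db (r1_one r1_mul)

theorem ne_pl {p l : ℕ} {P Q : Ideal (𝓞 Qb)} (oP : Ov p P) (oQ : Ov l Q) (n : l ≠ p) (g : GQ) :
    Q ≠ g • P := fun c => by
  have h2 : (p : 𝓞 Qb) ∈ Q := by
    rw [c, Ideal.mem_pointwise_smul_iff_inv_smul_mem, ← MulSemiringAction.toRingHom_apply,
      map_natCast]
    exact oP.2.2
  obtain ⟨x, y, c⟩ := (Nat.isCoprime_iff_coprime.2
    ((Nat.coprime_primes oQ.1 oP.1).2 n)).map (Int.castRingHom (𝓞 Qb))
  rw [map_natCast, map_natCast] at c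
  exact oQ.2.1.ne_top ((Ideal.eq_top_iff_one _).2
    (c ▸ add_mem (Q.mul_mem_left x oQ.2.2) (Q.mul_mem_left y h2)))

variable [Pp]

/-- **row MUL** -/
theorem mul : MUL := by
  intro R _ ρ J ⟨hs, hk⟩ J0 Γ T χ b α δ P hχ hb ⟨C, C', hC, k⟩ oP dP rel
  have := Finite.of_equiv _ (P004F.Alg.ps_equiv ρ hs hk).some.symm
  have : Finite (DualNumber R) := inferInstanceAs (Finite (R × R))
  let π : R →+* ZMod pp := ρ.liftOfSurjective hs ⟨PowerSeries.constantCoeff, fun x hx =>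
    PowerSeries.X_dvd_iff.1 ((dvd_pow_self _ J0.ne').trans ((hk x).1 hx))⟩
  have pρ : ∀ x, π (ρ x) = PowerSeries.constantCoeff x := fun x =>
    ρ.liftOfRightInverse_comp_apply _ _ _ x
  have := π.domain_nontrivial
  have := IsLocalRing.of_surjective' ρ hs
  have : IsLocalRing (DualNumber R) := .of_isUnit_or_isUnit_one_sub_self fun x => by
    simpa only [isUnit_iff_isUnit_fst, fst_sub, fst_one] using
      IsLocalRing.isUnit_or_isUnit_one_sub_self x.fst
  have hC' := mul_eq_one_comm.1 hC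
  obtain ⟨c, hc⟩ : ∃ c : GQ → Matrix (Fin 2) (Fin 2) (ZMod pp), ∀ g, c g = C' * b g * C :=
    ⟨_, fun _ => rfl⟩
  simp only [← hc] at k
  have k0 := fun g m => (k g m).1
  have cm (g) (hg : g ∈ Γ) (h) (hh : h ∈ Γ) : c (g * h) = c g * c h := by
    rw [hc, hc, hc, hb.mul g hg h hh]
    simp only [← mul_assoc]
    rw [mul_assoc _ C C', hC, mul_one]
  let τ := ρ.comp PowerSeries.C
  let a : GQ → Matrix (Fin 2) (Fin 2) (DualNumber R) := fun g =>
    !![inl (χ g * τ (c g 0 0)), 0; inr (χ g * τ (c g 1 0)), inl (χ g * τ (c g 1 1))]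
  have a1 (g) (e : r1 χ g = 1) (e' : b g = 1) : a g = 1 := by
    have : c g = 1 := by rw [hc, e', mul_one, hC']
    ext i j <;> fin_cases i <;> fin_cases j <;> simp [a, r1_one.1 e, this]
  have ha : Ge Γ T a := by
    obtain ⟨W, oW, w⟩ := hχ.lc
    obtain ⟨V, oV, v⟩ := hb.lc
    refine ⟨hb.opn, hb.idx, hb.cx, hb.pm, hb.pr, a1 1 hχ.one hb.one, fun g hg h hh => ?_,
      ⟨W ⊓ V, oW.inter oV, fun g hg m => a1 g (w g hg m.1) (v g hg m.2)⟩,
      fun g hg m => a1 g (hχ.unr g hg m) (hb.unr g hg m)⟩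
    simp only [a, mul_fin_two, cm g hg h hh, r1_mul.1 (hχ.mul g hg h hh), mul_apply,
      Fin.sum_univ_two, k0 g hg, k0 h hh]
    congr <;> ext <;> simp <;> ring
  have pd : ∀ x y, tt ρ ∣ x - ρ (PowerSeries.C y) ↔ π x = y := fun x y => by
    obtain ⟨x, rfl⟩ := hs x
    rw [pρ, ← map_sub]
    refine ⟨fun ⟨z, e⟩ => ?_, fun e => map_dvd ρ (PowerSeries.X_dvd_iff.2 (by simp [e]))⟩
    have := congrArg π e
    rw [map_mul, pρ, pρ] at this
    simpa [sub_eq_zero] using this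
  have t0 (g) (hg : g ∈ Γ) : χ g * τ (c g 0 0) = tw ρ α χ g := by rw [(k g hg).2.1, mul_comm]; rfl
  have t1 (g) (hg : g ∈ Γ) : χ g * τ (c g 1 1) = tw ρ δ χ g := by rw [(k g hg).2.2, mul_comm]; rfl
  have am (g) (hg : g ∈ Γ) : (a g).map (π.comp (fstHom R R R).toRingHom) =
      !![π (tw ρ α χ g), 0; 0, π (tw ρ δ χ g)] := by
    ext i j
    fin_cases i <;> fin_cases j <;> simp [a, t0 g hg, t1 g hg]
  obtain ⟨g, r, Q, u, w, hp, e⟩ := Pr.presS (π := π.comp (fstHom R R R).toRingHom)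
    (P := fun _ : Unit => P) (b := fun _ _ => (0 : Matrix _ Empty _)) (N := (0 : Matrix Empty _ _))
    (by simp) ha (fun _ => ⟨pp, hb.pm, oP⟩) (fun _ _ _ _ _ => rfl)
    (Pr.deg_one (fun _ _ => dP) fun _ _ _ _ => rfl)
    (fun _ _ _ _ _ => ⟨0, Subsingleton.elim _ _⟩) (fun _ => ⟨⊤, isOpen_univ, fun _ _ _ _ _ => rfl⟩)
    (Subsingleton.elim _ _) (rel.imp (fun ⟨⟨g, hg, x⟩, g', hg', y⟩ v h => by
      have s := congrFun (h g hg) 0
      have t := congrFun (h g' hg') 1
      rw [pd] at x y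
      simp only [am g hg, am g' hg', Pq.Co.om_oz] at s t
      simp [vecMul, dotProduct, mul_comm, x, y] at s t
      exact funext (Fin.forall_fin_two.2 ⟨s, t⟩))
    fun ⟨l, hl, l3, Q₀, oQ, dQ, x, y⟩ => ⟨l, hl, l3, Q₀, oQ, dQ, fun g hg => (am g (dQ hg)).trans (by
      rw [(pd _ 1).1 (by simpa using x g hg), (pd _ 1).1 (by simpa using y g hg),
        one_fin_two]), fun _ g _ => ne_pl oP oQ l3 g⟩)
  obtain rfl : r = g := by simpa using e
  have pr (M : Type) [AddCommGroup M] [Module (DualNumber R) M] :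
      Nat.card {y : Fin r → M // ac Q y = 0} =
        Nat.card (Zc Γ T P fun g (z : Fin 2 → M) => ac (a g) z) :=
    (Nat.card_congr (((Equiv.subtypeEquivRight fun y =>
      (and_iff_left (Subsingleton.elim _ _)).symm).trans (hp.bij M).equiv).trans
        (Equiv.subtypeEquivRight fun y => and_iff_left (Subsingleton.elim _ _)))).trans (zs M a)
  let _ : Module (DualNumber R) R := Module.compHom R (fstHom R R R).toRingHom
  have sm (x : DualNumber R) (y : R) : x • y = x.fst * y := rfl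
  have E0 : Nat.card {y // Q.map fst *ᵥ y = 0} = _ := pr R
  have c2 : C.map τ * C'.map τ = 1 := by
    rw [← Matrix.map_mul, hC, Matrix.map_one _ τ.map_zero τ.map_one]
  have E1 : Nat.card {y // Q *ᵥ y = 0} = Nat.card (Z0 Γ T (r2 ρ χ b) P) *
      Nat.card {y // Q.map fst *ᵥ y = 0} := (pr (DualNumber R)).trans (Eq.trans (split
    (f₁ := fun g (z : Fin 2 → R) => ac (r2 ρ χ b g) z)
    (f₂ := fun g (z : Fin 2 → R) => ac (a g) z)
    ⟨⟨fun z => (C.map τ *ᵥ ![(z 0).fst, (z 1).snd], ![(z 0).snd, (z 1).fst]),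
      fun w => ![((C'.map τ *ᵥ w.1) 0, w.2 0), (w.2 1, (C'.map τ *ᵥ w.1) 1)],
      fun z => funext fun i => by
        simp only [mulVec_mulVec, mul_eq_one_comm.1 c2, one_mulVec]
        fin_cases i <;> rfl,
      fun w => Prod.ext ((congrArg _ (funext fun i => by fin_cases i <;> rfl)).trans
        (show C.map τ *ᵥ C'.map τ *ᵥ w.1 = w.1 by rw [mulVec_mulVec, c2, one_mulVec]))
        (funext fun i => by fin_cases i <;> rfl)⟩, fun x y => Prod.ext (by
          change _ = C.map τ *ᵥ _ + C.map τ *ᵥ _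
          rw [← mulVec_add]; exact congrArg (C.map τ *ᵥ ·) (funext fun i => by fin_cases i <;> rfl))
        (funext fun i => by fin_cases i <;> rfl)⟩ (fun g hg z => Prod.ext (by
      have : b g * C = C * c g := by rw [hc, ← mul_assoc, ← mul_assoc, hC, one_mul]
      change C.map τ *ᵥ _ = (χ g • (b g).map τ) *ᵥ C.map τ *ᵥ _
      rw [smul_mulVec, mulVec_mulVec, ← Matrix.map_mul, this, Matrix.map_mul, ← mulVec_mulVec,
        ← mulVec_smul]
      congr 1; ext i
      fin_cases i <;> simp [ac, a, mulVec, dotProduct, k0 g hg] <;> ring)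
      (funext fun i => by fin_cases i <;> simp [ac, a, sm])))
    (congrArg₂ (· * ·) (zs R _).symm E0.symm))
  have E2 : Nat.card (Zr Γ T (tw ρ α χ) P) * Nat.card (Zr Γ T (tw ρ δ χ) P) =
      Nat.card {y // Q.map fst *ᵥ y = 0} := by
    let Φ : (Fin 2 → R) ≃+ (Fin 1 → R) × (Fin 1 → R) :=
      ⟨⟨fun z => (fun _ => z 0, fun _ => z 1), fun w => ![w.1 0, w.2 0],
        fun z => funext fun i => by fin_cases i <;> rfl, fun w => Prod.ext
          (funext fun i => by fin_cases i; rfl) (funext fun i => by fin_cases i; rfl)⟩, fun _ _ => rfl⟩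
    rw [E0, zs, zs]
    refine (split Φ fun g hg z => Prod.ext (funext fun i => ?_) (funext fun i => ?_)).symm <;>
      simp [Φ, ac, a, sm, r1, t0 g hg, t1 g hg, Fin.eq_zero i]
  obtain ⟨n, hn⟩ := pw hs hk (Q.map fst)
  have n0 : 0 < pp ^ n := pow_pos pp_pos n
  have U := P004R.Db.up Q
  have D := fun h => down hs hk Q (l := n) h (by rw [Nat.card_zmod]; exact hn.ge)
  have F : 0 < Nat.card {y // Q *ᵥ y = 0} := Nat.card_pos_iff.2 ⟨⟨⟨0, mulVec_zero _⟩⟩, inferInstance⟩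
  rw [Nat.card_zmod, two_mul, pow_add] at D
  rw [E1] at U D F
  rw [E2.trans hn]
  rw [hn] at U D
  exact ⟨Nat.finite_of_card_ne_zero (left_ne_zero_of_mul F.ne'),
    Nat.le_of_mul_le_mul_right (by rwa [← sq]) n0, fun l h h' => Nat.le_of_mul_le_mul_right (D (by
      have := (Nat.pow_le_pow_iff_right pp_prime.one_lt).1 h'
      omega)) n0⟩

end Vale.Agent.P014Z.Ml
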